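import Crest.Agent.N111.D.Cov

/-!
# Row 111: the incidence lemma (B) for an arbitrary covariant POVM on lines (helper48)
-/

set_option autoImplicit false
set_option linter.unusedSectionVars false

namespace Crest.Agent.N111

open MeasureTheory Topology Filter Matrix
open scoped InnerProductSpace

variable {K : Type} [NormedAddCommGroup K] [InnerProductSpace ℂ K] [CompleteSpace K]

namespace LC

/-- uniformly bounded operators that tend to zero on a total set tend to zero strongly -/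
theorem tendsto_of_span {α E F : Type*} [NormedAddCommGroup E] [NormedSpace ℂ E]
    [NormedAddCommGroup F] [NormedSpace ℂ F] {l : Filter α} {T : α → E →L[ℂ] F} {C : ℝ}
    (hC : ∀ k, ‖T k‖ ≤ C) {S : Set E} (hS : Dense (Submodule.span ℂ S : Set E))
    (h : ∀ v ∈ S, Tendsto (fun k => T k v) l (𝓝 0)) (v : E) :
    Tendsto (fun k => T k v) l (𝓝 0) := by
  have h1 : ∀ w ∈ Submodule.span ℂ S, Tendsto (fun k => T k w) l (𝓝 0) := fun w hw => by
    induction hw using Submodule.span_induction with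
    | mem w hw => exact h w hw
    | zero => simpa using tendsto_const_nhds
    | add a b _ _ ha hb => simpa using ha.add hb
    | smul c a _ ha => simpa using ha.const_smul c
  rw [Metric.tendsto_nhds]
  intro ε hε
  have hC' : 0 < |C| + 1 := by positivity
  obtain ⟨w, hw, hd⟩ := hS.exists_dist_lt v (show 0 < ε / 2 / (|C| + 1) by positivity)
  filter_upwards [Metric.tendsto_nhds.1 (h1 w hw) (ε / 2) (half_pos hε)] with k hk
  rw [dist_zero_right] at hk ⊢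
  rw [dist_eq_norm, lt_div_iff₀ hC'] at hd
  have h2 : ‖T k (v - w)‖ ≤ ‖v - w‖ * (|C| + 1) := by
    rw [mul_comm]
    refine ((T k).le_opNorm _).trans ?_
    gcongr
    linarith [hC k, le_abs_self C]
  calc ‖T k v‖ = ‖T k (v - w) + T k w‖ := by rw [← map_add, sub_add_cancel]
    _ ≤ _ := norm_add_le _ _
    _ < ε := by linarith

theorem al_conj_tv {j : Fin 3} (hj : (0 : Fin 3) ≠ j) (s b : ℝ) :
    (al s)⁻¹ * tv hj b * al s = tv hj (Real.exp (3 * s) * b) := by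
  have := dg_conj_tv (-2 * -s) (-s) hj b
  rw [← al, al_neg, inv_inv] at this
  rw [this]
  congr 3
  fin_cases j
  · exact absurd rfl hj
  · simp [dgl]; ring
  · simp [dgl]; ring

theorem abs_le_nm_tv {i j : Fin 3} (h : i ≠ j) (b : ℝ) : |b| ≤ nm (tv h b) := by
  have := abs_le_nm (tv h b) i j
  rwa [tv_apply, if_neg h, if_pos ⟨rfl, rfl⟩, zero_add] at this

variable (I : Ind K)

/-- the averaging estimate: rows with finite overlap are small along the flow -/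
theorem rows_small (P : POVM V K) (hN : ∀ h, BM h → P.E h ∈ I.N) {j : Fin 3}
    (hj : (0 : Fin 3) ≠ j) (htv : ∀ h, BM h → ∀ b, Commute (P.E h) (I.U (tv hj b))) {ζ : K}
    {B R : ℝ} (hζ : ∀ Y ∈ I.C.centralizer, ∀ (n : ℕ) (g : Fin n → G),
      (∀ i k, i ≠ k → R < nm ((g i)⁻¹ * g k)) →
      ∑ i, ‖I.j (Y (I.U (g i) ζ))‖ ^ 2 ≤ B * ‖star Y I.ξ‖ ^ 2) {D ε : ℝ} (hD : 0 ≤ D)
    (hε : 0 < ε) : ∀ᶠ k : ℕ in atTop, ∀ (e : Γ → V → ℂ) (F : Finset Γ), (∀ μ, BM (e μ)) →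
      (∀ b, ∑ μ ∈ F, ‖e μ b‖ ^ 2 ≤ D) →
      ∑ μ ∈ F, ‖I.j (P.E (e μ) (I.ρ μ⁻¹ (I.U (al k) ζ)))‖ ^ 2 ≤ ε := by
  have hB : 0 ≤ B := by
    have := hζ 1 I.one_N 0 Fin.elim0 fun i => i.elim0
    rw [Finset.univ_eq_empty, Finset.sum_empty, star_one, ContinuousLinearMap.one_apply] at this
    exact nonneg_of_mul_nonneg_left this (pow_pos (norm_pos_iff.2 I.ξ_ne) 2)
  obtain ⟨n, hn⟩ := exists_nat_gt (4 * B * D * ‖I.ξ‖ ^ 2 / ε)
  have hn0 : (0 : ℝ) < n := lt_of_le_of_lt (by positivity) hn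
  rw [div_lt_iff₀ hε] at hn
  obtain ⟨δ, hδ, hδ'⟩ : ∃ δ > (0 : ℝ), 4 * B * D * δ ^ 2 ≤ ε := by
    refine ⟨min 1 (ε / (4 * B * D + 1)), by positivity, ?_⟩
    have h1 : min 1 (ε / (4 * B * D + 1)) ^ 2 ≤ ε / (4 * B * D + 1) := by
      rw [sq]
      exact (mul_le_mul (min_le_left _ _) (min_le_right _ _) (by positivity) zero_le_one).trans
        (one_mul _).le
    calc _ ≤ (4 * B * D + 1) * (ε / (4 * B * D + 1)) := by gcongr; linarith
      _ = ε := by field_simp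
  have hy1 : star (I.y 1) I.ξ = I.ξ := by simpa using I.V_ξ 1
  have hcont : ∀ᶠ β in 𝓝[>] (0 : ℝ), ∀ i : Fin n,
      ‖star (I.y (tv hj (-(i * β)))) I.ξ - I.ξ‖ ≤ δ := by
    refine nhdsWithin_le_nhds (eventually_all.2 fun i => ?_)
    have h1 : Continuous fun β : ℝ => ‖star (I.y (tv hj (-(i * β)))) I.ξ - I.ξ‖ :=
      ((I.tendsto_star_y_ξ.comp ((continuous_tv hj).comp (by fun_prop))).sub continuous_const).norm
    exact (h1.tendsto' 0 0 (by simp [hy1])).eventually (ge_mem_nhds hδ)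
  obtain ⟨β, hβ, hβ0⟩ := (hcont.and self_mem_nhdsWithin).exists
  have hβ0 : 0 < β := hβ0
  have hexp : Tendsto (fun k : ℕ => Real.exp (3 * k) * β) atTop atTop :=
    (Real.tendsto_exp_atTop.comp
      (tendsto_natCast_atTop_atTop.const_mul_atTop (by norm_num))).atTop_mul_const hβ0
  filter_upwards [hexp.eventually_gt_atTop R] with k hk e F he hov
  set g : Fin n → G := fun i => tv hj (i * β) * al k with hg
  have hsep : ∀ i l, i ≠ l → R < nm ((g i)⁻¹ * g l) := fun i l hil => by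
    have e1 : (g i)⁻¹ * g l = tv hj (Real.exp (3 * k) * (-(i * β) + l * β)) := by
      rw [← al_conj_tv, tv_add, ← tv_inv, hg]; group
    rw [e1]
    refine hk.trans_le (le_trans ?_ (abs_le_nm_tv _ _))
    have h1 : (1 : ℝ) ≤ |((l : ℕ) : ℝ) - (i : ℕ)| := by
      have h2 : (1 : ℤ) ≤ |((l : ℕ) : ℤ) - (i : ℕ)| :=
        Int.one_le_abs (sub_ne_zero.2 fun h => hil (Fin.ext (by omega)))
      exact_mod_cast h2
    rw [show -((i : ℕ) * β) + (l : ℕ) * β = (((l : ℕ) : ℝ) - (i : ℕ)) * β by ring, abs_mul, abs_mul,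
      abs_of_pos (Real.exp_pos _), abs_of_pos hβ0]
    gcongr
    exact le_mul_of_one_le_left hβ0.le h1
  set Y : Γ → K →L[ℂ] K := fun μ => P.E (e μ) * I.ρ μ⁻¹ with hY
  have hYN : ∀ μ, Y μ ∈ I.N := fun μ => Ind.mul_N (hN _ (he μ)) (I.ρ_N _)
  have hYs : ∀ v, ∑ μ ∈ F, ‖star (Y μ) v‖ ^ 2 ≤ D * ‖v‖ ^ 2 := fun v => by
    refine le_trans (le_of_eq (Finset.sum_congr rfl fun μ _ => ?_))
      (P.sum_norm_E_sq_le F (fun μ _ => (he μ).conj) (B := D) (fun b => by simpa using hov b) v)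
    rw [hY, star_mul, URep.star_apply, ContinuousLinearMap.mul_apply, URep.norm_map,
      P.E_star (he μ)]
  have key : ∀ μ (i : Fin n), ‖I.j (Y μ (I.U (al k) ζ))‖ ^ 2 ≤ 2 * ‖I.j (Y μ (I.U (g i) ζ))‖ ^ 2 +
      2 * (B * ‖star (Y μ) (star (I.y (tv hj (-(i * β)))) I.ξ - I.ξ)‖ ^ 2) := fun μ i => by
    have c1 : Commute (Y μ) (I.U (tv hj (-(i * β)))) :=
      (htv _ (he μ) _).mul_left (I.Uρ _ _).symm
    have e1 : Y μ (I.U (al k) ζ) = I.U (tv hj (-(i * β))) (Y μ (I.U (g i) ζ)) := by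
      rw [← ContinuousLinearMap.mul_apply (I.U _), ← c1.eq, ContinuousLinearMap.mul_apply (Y μ),
        ← URep.mul_apply, hg, ← tv_inv, inv_mul_cancel_left]
    have e2 : ‖I.j (Y μ (I.U (al k) ζ))‖ =
        ‖I.j (I.y (tv hj (-(i * β))) (Y μ (I.U (g i) ζ)))‖ := by
      rw [e1, I.U_eq, ContinuousLinearMap.mul_apply, ← ContinuousLinearMap.mul_apply I.j,
        ← (I.vv_j _).eq, ContinuousLinearMap.mul_apply,
        ContinuousLinearMap.norm_map_of_mem_unitary (I.vv_unitary _)]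
    have h3 := hζ ((I.y (tv hj (-(i * β))) - 1) * Y μ)
      (Ind.mul_N (Ind.sub_N (I.y_N _) I.one_N) (hYN μ)) 1 (fun _ => g i)
      fun a b hab => absurd (Subsingleton.elim a b) hab
    rw [Fin.sum_univ_one, star_mul, star_sub, star_one, ContinuousLinearMap.mul_apply _ (Y μ),
      ContinuousLinearMap.mul_apply (star (Y μ)), ContinuousLinearMap.sub_apply,
      ContinuousLinearMap.sub_apply, ContinuousLinearMap.one_apply, ContinuousLinearMap.one_apply,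
      map_sub] at h3
    rw [e2]
    set a := I.j (I.y (tv hj (-(i * β))) (Y μ (I.U (g i) ζ)))
    set b := I.j (Y μ (I.U (g i) ζ))
    have h4 : ‖a‖ ≤ ‖b‖ + ‖a - b‖ := by simpa using norm_add_le b (a - b)
    nlinarith [norm_nonneg a, norm_nonneg b, norm_nonneg (a - b), sq_nonneg (‖b‖ - ‖a - b‖)]
  have hsum : (n : ℝ) * ∑ μ ∈ F, ‖I.j (Y μ (I.U (al k) ζ))‖ ^ 2 ≤
      2 * (B * (D * ‖I.ξ‖ ^ 2)) + n * (2 * (B * (D * δ ^ 2))) := by
    calc (n : ℝ) * ∑ μ ∈ F, ‖I.j (Y μ (I.U (al k) ζ))‖ ^ 2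
        = ∑ i : Fin n, ∑ μ ∈ F, ‖I.j (Y μ (I.U (al k) ζ))‖ ^ 2 := by simp
      _ ≤ ∑ i : Fin n, ∑ μ ∈ F, (2 * ‖I.j (Y μ (I.U (g i) ζ))‖ ^ 2 +
          2 * (B * ‖star (Y μ) (star (I.y (tv hj (-(i * β)))) I.ξ - I.ξ)‖ ^ 2)) :=
        Finset.sum_le_sum fun i _ => Finset.sum_le_sum fun μ _ => key μ i
      _ = 2 * ∑ μ ∈ F, ∑ i : Fin n, ‖I.j (Y μ (I.U (g i) ζ))‖ ^ 2 + ∑ i : Fin n, 2 * (B *
          ∑ μ ∈ F, ‖star (Y μ) (star (I.y (tv hj (-(i * β)))) I.ξ - I.ξ)‖ ^ 2) := by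
        simp only [Finset.sum_add_distrib, Finset.mul_sum]
        rw [Finset.sum_comm]
      _ ≤ 2 * ∑ μ ∈ F, B * ‖star (Y μ) I.ξ‖ ^ 2 + ∑ i : Fin n, 2 * (B * (D * δ ^ 2)) := by
        gcongr with μ _ i _
        · exact hζ _ (hYN μ) n g hsep
        · exact (hYs _).trans (by gcongr; exact hβ i)
      _ ≤ _ := by
        rw [← Finset.mul_sum, Finset.sum_const, Finset.card_univ, Fintype.card_fin, nsmul_eq_mul]
        gcongr
        exact hYs _
  refine le_of_mul_le_mul_left (hsum.trans ?_) hn0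
  nlinarith [mul_le_mul_of_nonneg_left hδ' hn0.le]

variable {I} {I' : Ind K} {L : ℕ → ℝ} {Gm : POVM V K}

/-- **INC** -/
theorem inc_seq (hd : I.IsDual I') (hL : I.Tight L) (hG : I'.Cov Gm)
    (hal : ∀ h, BM h → ∀ k : ℕ, Commute (Gm.E h) (I.U (al k))) {i : Fin 3} (hi : (0 : Fin 3) ≠ i)
    (htv : ∀ h, BM h → ∀ b, Commute (Gm.E h) (I.U (tv hi b))) {f h : V → ℂ} (hf : BM f)
    (hh : BM h) (hh0 : Hom0 h) {θ : ℝ} (hθ : 0 < θ)
    (hni : ∀ a b, f a ≠ 0 → h b ≠ 0 → θ * (‖a‖ * ‖b‖) ≤ |a ⬝ᵥ b|) (ζ : K) :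
    Tendsto (fun k : ℕ => I.mJ (fun μ => f (pt μ)) (I.U (al k) (Gm.E h ζ))) atTop (𝓝 0) := by
  classical
  obtain ⟨Ch, hCh0, hCh⟩ := hh.exists_nonneg
  obtain ⟨Cf, hCf0, hCf⟩ := hf.exists_nonneg
  have hN : ∀ h, BM h → Gm.E h ∈ I.N := fun h hh => hd.N_eq ▸ hG.mem h hh
  have hρ : ∀ ν : Γ, I.ρ ν⁻¹ * Gm.E h * I.ρ ν =
      Gm.E fun b => ic {0}ᶜ b * h (ac (ι (dl ν)) b) := fun ν => by
    have := hG.covρ h hh hh0 (dl ν⁻¹)
    rw [hd.ρ_eq, hd.ρ_eq, ← map_inv, dl_dl, dl_dl, inv_inv] at this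
    rw [this, hG.proj.sym.cut (hh.comp (measurable_ac _))]
  have nP : ‖Gm.E h‖ ≤ Ch := Gm.norm_E_le hh.1 hCh0 hCh
  have cut : ∀ R : ℝ, Tendsto (fun k : ℕ => I.mJ (fun μ => f (pt μ) * ic (Sh (L k) R) μ)
      (Gm.E h (I.U (al k) ζ))) atTop (𝓝 0) := by
    intro R
    have hb : ∀ k μ, ‖f (pt μ) * ic (Sh (L k) R) μ‖ ≤ Cf := fun k μ => by
      rw [norm_mul]
      exact (mul_le_of_le_one_right (norm_nonneg _) (norm_ic_le _ _)).trans (hCf _)
    refine tendsto_of_span (T := fun k : ℕ => (I.mJ fun μ => f (pt μ) * ic (Sh (L k) R) μ) ∘L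
      (Gm.E h * I.U (al k))) (C := Cf * Ch)
      (fun k => ContinuousLinearMap.opNorm_le_bound _ (by positivity) fun v => ?_) I.sep ?_ ζ
    · refine (I.norm_mJ_le hCf0 (hb k) _).trans ?_
      rw [mul_assoc]
      gcongr
      refine ((Gm.E h).le_opNorm (I.U (al k) v)).trans ?_
      rw [URep.norm_map]
      gcongr
    rintro v ⟨-, B, R0, hv⟩
    obtain ⟨N, hov⟩ := overlap R (Real.exp R / θ)
    rw [Metric.tendsto_nhds]
    intro ε hε
    filter_upwards [rows_small I Gm hN hi htv hv (D := N * (Cf * Ch) ^ 2) (by positivity)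
      (show 0 < (ε / 2) ^ 2 by positivity)] with k hk
    rw [dist_zero_right]
    refine lt_of_le_of_lt (LG.norm_le (half_pos hε).le fun F => ?_) (half_lt_self hε)
    set e : Γ → V → ℂ := fun μ b => f (pt μ) * ic (Sh (L k) R) μ *
      (ic {0}ᶜ b * h (ac (ι (dl μ)) b)) with he
    have hm : ∀ μ, BM fun b => ic {0}ᶜ b * h (ac (ι (dl μ)) b) := fun μ =>
      (BM.ic (measurableSet_singleton _).compl).mul (hh.comp (measurable_ac _))
    refine le_trans (le_of_eq (Finset.sum_congr rfl fun μ _ => ?_))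
      (hk e F (fun μ => (hm μ).const_mul _) fun b => ?_)
    · rw [ContinuousLinearMap.comp_apply, I.mJ_apply (bm_Γ (hb k)), he, Gm.E_smul _ (hm μ), ← hρ μ]
      simp
    · rw [← Finset.sum_filter_ne_zero]
      have hc : (F.filter fun μ => ‖e μ b‖ ^ 2 ≠ 0).card ≤ N := by
        by_cases hb0 : b = 0
        · rw [Finset.filter_false_of_mem fun μ _ => by simp [he, hb0]]
          simp
        refine hov (L k) b hb0 _ fun μ hμ => ?_
        have h1 := (Finset.mem_filter.1 hμ).2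
        simp only [he, ne_eq, pow_eq_zero_iff two_ne_zero, norm_eq_zero, mul_eq_zero,
          not_or] at h1
        have h2 : μ ∈ Sh (L k) R := by
          by_contra h2
          exact h1.1.2 (ic_of_notMem h2)
        refine ⟨h2, norm_ac_dl_le hθ h2 ?_⟩
        rw [mul_comm ‖_‖, dotProduct_comm]
        exact hni _ _ h1.1.1 h1.2.2
      calc _ ≤ ∑ μ ∈ F.filter fun μ => ‖e μ b‖ ^ 2 ≠ 0, (Cf * Ch) ^ 2 :=
            Finset.sum_le_sum fun μ _ => by
              rw [he, norm_mul]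
              gcongr
              · exact hb k μ
              · rw [norm_mul]
                exact (mul_le_of_le_one_left (norm_nonneg _) (norm_ic_le _ _)).trans (hCh _)
        _ ≤ _ := by
          rw [Finset.sum_const, nsmul_eq_mul]
          gcongr
  rw [Metric.tendsto_nhds]
  intro ε hε
  obtain ⟨R, hR⟩ := hL.seq (Gm.E h ζ) (ε / 2 / (Cf + 1)) (by positivity)
  filter_upwards [hR, Metric.tendsto_nhds.1 (cut R) (ε / 2) (half_pos hε)] with k h1 h2
  rw [dist_zero_right] at h2 ⊢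
  have bf : BM fun μ => f (pt μ) := bm_Γ fun μ => hCf _
  have e3 : (fun μ => f (pt μ)) = fun μ => f (pt μ) * ic (Sh (L k) R) μ +
      f (pt μ) * ic (Sh (L k) R)ᶜ μ := by
    funext μ; rw [ic_compl]; ring
  have n2 : ‖I.mJ (fun μ => f (pt μ) * ic (Sh (L k) R)ᶜ μ) (I.U (al k) (Gm.E h ζ))‖ ≤
      (Cf + 1) * (ε / 2 / (Cf + 1)) := by
    refine (I.norm_mJ_mono (C := Cf + 1) (bm_ic_Γ _) (by positivity) (fun μ => ?_) _).trans
      (by gcongr)
    rw [norm_mul]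
    gcongr
    linarith [hCf (pt μ)]
  rw [mul_div_cancel₀ _ (by positivity)] at n2
  rw [← ContinuousLinearMap.mul_apply, (hal h hh k).eq, ContinuousLinearMap.mul_apply] at h2
  rw [e3, I.mJ_add (bf.mul (bm_ic_Γ _)) (bf.mul (bm_ic_Γ _)), ContinuousLinearMap.add_apply]
  exact (norm_add_le _ _).trans_lt (by linarith)

end LC

end Crest.Agent.N111
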