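import Crest.Agent.N111.E.Api
import Crest.Agent.N111.D.Mid
import Crest.Agent.N111.D.Inc

/-!
# Row 111: lifts commute with the incident boundary PVMs (`LiftCommStmt`) (helper48)
-/

set_option autoImplicit false
set_option linter.unusedSectionVars false

namespace Crest.Agent.N111

open MeasureTheory Topology Filter Matrix
open scoped InnerProductSpace

variable {K : Type} [NormedAddCommGroup K] [InnerProductSpace ℂ K] [CompleteSpace K]

namespace LC

theorem commute_conj {Gp : Type} [Group Gp] (U : URep Gp K) (g : Gp) {u T : K →L[ℂ] K} {c : ℂ}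
    (hc : ‖c‖ = 1) (hu : U g * u * U g⁻¹ = c • u) (hT : Commute T (U g)) :
    Commute (star u * T * star (star u)) (U g) := by
  have h1 : U g * u = c • (u * U g) := by
    rw [← smul_mul_assoc, ← hu, mul_assoc, URep.inv_mul_self, mul_one]
  have h2 : U g * star u = star c • (star u * U g) := by
    have := congrArg star hu
    rw [star_mul, star_mul, URep.star_apply, URep.star_apply, inv_inv, star_smul] at this
    rw [← smul_mul_assoc, ← this, mul_assoc, mul_assoc, URep.inv_mul_self, mul_one]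
  have h3 : star c * c = 1 := by
    rw [RCLike.star_def, Complex.conj_mul', hc]; simp
  rw [star_star, Commute, SemiconjBy]
  calc star u * T * u * U g = (star c * c) • (star u * T * (u * U g)) := by
        rw [h3, one_smul, mul_assoc _ u]
    _ = star c • (star u * (T * U g) * u) := by
        rw [mul_smul, ← mul_smul_comm, ← h1]; simp only [mul_assoc]
    _ = _ := by
        rw [hT.eq, ← mul_assoc, ← mul_assoc, ← mul_assoc, h2]; simp only [smul_mul_assoc]

variable {I I' : Ind K} {L : ℕ → ℝ} {Φ Ψ A : V → POVM V K} {sc : ℝ → ℝ}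

theorem std (hd : I.IsDual I') (hL : I.Tight L) (hΦ : I.IsPro Φ) (hΨ : I'.IsPro Ψ)
    (hi : Ind.IsInc Φ Ψ) (hA : I.IsLift L Φ A sc) {f h : V → ℂ} (hf : BM f) (hh : BM h) :
    Commute ((A (ev 1)).E f) ((Ψ (ev 2)).E h) := by
  have e1 := ev_ne_zero 1
  have e2 := ev_ne_zero 2
  have d12 : ev 1 ⬝ᵥ ev 2 = 0 := by simp [ev_dot_ev]
  have d02 : ev 0 ⬝ᵥ ev 2 = 0 := by simp [ev_dot_ev]
  have n02 : (0 : Fin 3) ≠ 2 := by decide
  refine (hA.commute_of e1 (fun g hg => (hi.comm _ _ e1 e2 d12 g h hg hh).symm) (fun t => ?_)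
    hf).symm
  set u := (A (ev 1)).E (lg t) with hu
  have uu := hA.lg_unitary (ev 1) t
  have u1 : star u * star (star u) = 1 := by rw [star_star]; exact uu.1
  have uΦ : ∀ g, BM g → Commute u ((Φ (ev 1)).E g) := fun g hg => hA.commute_Φ e1 (bm_lg t) hg
  have ΨU : ∀ (g : G) (z : ℝ), ac (dl g) (ev 2) = z • ev 2 → ∀ k, BM k →
      Commute ((Ψ (ev 2)).E k) (I.U g) := fun g z hg k hk => by
    have := hΨ.pre.commute e2 hg hk
    rwa [hd.U_eq, dl_dl] at this
  set G' := (Ψ (ev 2)).conj (star u) u1 with hG'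
  have cov : I'.Cov G' := by
    refine ⟨(hΨ.proj _).conj _ _, fun k hk => ?_, fun k hk k0 ν => ?_⟩
    · have uN : u ∈ I'.N := hd.N_eq ▸ hA.mem e1 (bm_lg t)
      exact Ind.mul_N (Ind.mul_N (Ind.star_N uN) (hΨ.mem e2 hk)) (Ind.star_N (Ind.star_N uN))
    · have h1 := hA.ρ_lg e1 (dl ν) t
      rw [← map_inv, ← hd.ρ_eq, ← hd.ρ_eq, ← hu] at h1
      have h2 := hΨ.covρ _ e2 k hk k0 ν
      set w := (Φ (ev 1)).E (cz (ι (dl ν⁻¹)) t) with hw
      have wu : w ∈ unitary (K →L[ℂ] K) := (hΦ.pvm _).ex_mem_unitary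
        (θ := fun a => t * (Real.log ‖ac (ι (dl ν⁻¹)) a‖ - Real.log ‖a‖)) (by fun_prop)
      have c1 : Commute u w := uΦ _ (bm_cz _ _)
      have c2 : Commute w ((Ψ (ev 2)).E fun a => k (ac (ι ν⁻¹) a)) :=
        hi.comm _ _ e1 e2 d12 _ _ (bm_cz _ _) (hk.comp (measurable_ac _))
      have h3 : I'.ρ ν * star u * I'.ρ ν⁻¹ = star u * star w := by
        have := congrArg star h1
        rwa [c1.eq, star_mul, star_mul, star_mul, URep.star_apply, URep.star_apply, inv_inv,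
          ← mul_assoc] at this
      rw [hG', POVM.conj_E, POVM.conj_E, star_star]
      calc I'.ρ ν * (star u * (Ψ (ev 2)).E k * u) * I'.ρ ν⁻¹
          = (I'.ρ ν * star u * I'.ρ ν⁻¹) * (I'.ρ ν * (Ψ (ev 2)).E k * I'.ρ ν⁻¹) *
            (I'.ρ ν * u * I'.ρ ν⁻¹) := by
            simp only [mul_assoc]
            simp only [← mul_assoc (I'.ρ ν⁻¹) (I'.ρ ν), URep.inv_mul_self, one_mul]
        _ = star u * (star w * (((Ψ (ev 2)).E fun a => k (ac (ι ν⁻¹) a)) * w)) * u := by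
            rw [h1, h2, h3, c1.eq]; simp only [mul_assoc]
        _ = _ := by rw [← c2.eq, ← mul_assoc (star w), wu.1, one_mul]
  have i0 : Inc (Φ (ev 0)) G' := by
    refine hΦ.isLim.inc le_rfl hd hL cov (fun k hk n => ?_) n02 fun k hk b => ?_
    · refine commute_conj I.U _ (norm_ex _) (hA.conj_lg e1 (ac_al_of n (by simp [ev])) t)
        (ΨU _ (Real.exp (-n)) ?_ k hk)
      rw [dl_al]; exact ac_al_of _ (by simp [ev])
    · refine commute_conj I.U _ (norm_ex _) (hA.conj_lg e1 (z := 1) ?_ t) (ΨU _ 1 ?_ k hk)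
      · rw [ac_tv]; simp [ev]
      · rw [dl_tv, ac_tv]; simp [ev]
  have j1 : Inc (Φ (ev 1)) (Ψ (ev 2)) := hi.inc _ _ e1 e2 d12
  have i1 : Inc (Φ (ev 1)) G' := j1.conj (Unitary.star_mem uu) (fun g hg => by
    rw [star_star, mul_assoc, ← (uΦ g hg).eq, ← mul_assoc, uu.1, one_mul]) fun _ _ => rfl
  have x01 : ev 0 ⨯₃ ev 1 ≠ 0 := by rw [Geo2.ev01]; exact e2
  have key := hΦ.pre.two x01 (hΦ.pvm _) cov.proj (hΨ.proj _) i0
    (hi.inc _ _ (ev_ne_zero 0) e2 d02) i1 j1 hh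
  rw [hG', POVM.conj_E, star_star] at key
  rw [Commute, SemiconjBy]
  conv_rhs => rw [← key]
  rw [← mul_assoc, ← mul_assoc, uu.2, one_mul]

theorem liftComm : LiftCommStmt := by
  intro K _ _ _ I I' L Φ Ψ A sc hd hL _ hΦ hΨ hi hA x y hx hy hxy f h hf hh
  obtain ⟨g, hg1, hg2⟩ := exists_ac_flag hx hy hxy
  obtain ⟨w, hw1, hw2⟩ := exists_ac_flag (ev_ne_zero 1) (ev_ne_zero 2) (by simp [ev_dot_ev])
  have a1 : ac (g * w⁻¹) (ev 1) = x := by rw [ac_mul, ← hw1, ac_inv_ac, hg1]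
  have a2 : ac (dl (g * w⁻¹)) (ev 2) = y := by
    rw [map_mul, map_inv, ac_mul]
    conv_lhs => rw [← hw2]
    rw [ac_inv_ac, hg2]
  have b2 := hΨ.covU _ (ev_ne_zero 2) h hh (dl (g * w⁻¹))
  rw [hd.U_eq, hd.U_eq, ← map_inv, dl_dl, dl_dl, a2] at b2
  have c := (std hd hL hΦ hΨ hi hA hf hh).eq
  rw [← a1, ← hA.covU _ (ev_ne_zero 1) f hf, ← b2, Commute, SemiconjBy]
  simp only [mul_assoc]
  simp only [← mul_assoc (I.U (g * w⁻¹)⁻¹) (I.U (g * w⁻¹)), URep.inv_mul_self, one_mul]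
  simp only [← mul_assoc _ _ (I.U (g * w⁻¹)⁻¹), c]

end LC

end Crest.Agent.N111
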